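import Vale.Agent.P271L61.C

/-!
# Line bundles and local frames with values in the function field
-/

open CategoryTheory Opposite AlgebraicGeometry TopologicalSpace

namespace Vale.Agent.P271L

noncomputable section

variable {X : Scheme.{0}}

theorem restrict_smul (L : X.Modules) (U : X.Opens) (V : U.toScheme.Opens) (a : Γ(U, V))
    (p : Γ(L.restrict U.ι, V)) :
    a • p = (show Γ(X, U.ι ''ᵁ V) from a) • (show S (pv L) (U.ι ''ᵁ V) from p) := by
  have h : (U.ι.appIso V).inv a = a := by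
    rw [Scheme.Opens.ι_appIso]
    rfl
  exact congrArg (fun t : Γ(X, U.ι ''ᵁ V) => t • (show S (pv L) (U.ι ''ᵁ V) from p)) h

theorem exists_basis {L : X.Modules} (hL : IsLineBundle L) (x : X) :
    ∃ W : X.Opens, x ∈ W ∧ ∃ b : S (pv L) W, ∀ (V : X.Opens) (e : V ≤ W),
      Function.Bijective fun a : Γ(X, V) => a • res (pv L) e b := by
  obtain ⟨U, hx, ⟨φ⟩⟩ := hL x
  refine ⟨U.ι ''ᵁ ⊤, by rwa [U.ι_image_top], φ.inv.app ⊤ (1 : Γ(U, ⊤)), fun V0 e => ?_⟩
  obtain ⟨V, rfl⟩ : ∃ V : U.toScheme.Opens, U.ι ''ᵁ V = V0 :=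
    ⟨U.ι ⁻¹ᵁ V0, by
      rw [Scheme.Hom.image_preimage_eq_opensRange_inf, Scheme.Opens.opensRange_ι]
      exact inf_eq_right.2 (e.trans U.ι_image_top.le)⟩
  have hb : Function.Bijective (φ.inv.app V) := ConcreteCategory.bijective_of_isIso _
  have h1 : φ.inv.app V (1 : Γ(U, V)) = res (pv L) e (φ.inv.app ⊤ (1 : Γ(U, ⊤))) := by
    have h2 := φ.inv.mapPresheaf.naturality_apply (homOfLE (le_top : V ≤ ⊤)).op (1 : Γ(U, ⊤))
    exact (congrArg (φ.inv.app V)
      (U.toScheme.presheaf.map (homOfLE (le_top : V ≤ ⊤)).op).hom.map_one.symm).trans h2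
  have h3 : ∀ a : Γ(X, U.ι ''ᵁ V), φ.inv.app V a =
      a • res (pv L) e (φ.inv.app ⊤ (1 : Γ(U, ⊤))) := by
    intro a
    have h4 := Scheme.Modules.Hom.app_smul φ.inv (U := V) (show Γ(U, V) from a) (1 : Γ(U, V))
    rw [restrict_smul, h1] at h4
    exact (congrArg (φ.inv.app V) (mul_one (show Γ(U, V) from a)).symm).trans h4
  exact (funext h3 : _ = _) ▸ hb

variable [IsIntegral X]

theorem exists_ev_of_isLineBundle {L : X.Modules} (hL : IsLineBundle L) :
    ∃ T : Ev (pv L) X.functionField, ∀ x, ∃ u, Fr T x u := by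
  obtain ⟨W0, h0, b0, hb0⟩ := exists_basis hL (genericPoint X)
  choose c hc using fun (W : X.Opens) (p : S (pv L) W) =>
    (hb0 (W ⊓ W0) inf_le_right).2 (res (pv L) inf_le_left p)
  have hc' : ∀ (W : X.Opens) (p : S (pv L) W),
      c W p • res (pv L) inf_le_right b0 = res (pv L) inf_le_left p := hc
  have hm : ∀ {W : X.Opens}, genericPoint X ∈ W → genericPoint X ∈ W ⊓ W0 := fun h => ⟨h, h0⟩
  let v : ∀ W : X.Opens, genericPoint X ∈ W → S (pv L) W → X.functionField :=
    fun W h p => gk (W ⊓ W0) (hm h) (c W p)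
  have key : ∀ (W : X.Opens) (h : genericPoint X ∈ W) (p : S (pv L) W) (V : X.Opens) (e : V ≤ W)
      (e0 : V ≤ W0) (hV : genericPoint X ∈ V) (a : Γ(X, V)),
      res (pv L) e p = a • res (pv L) e0 b0 → v W h p = gk V hV a := by
    intro W h p V e e0 hV a ha
    have h1 := congrArg (res (pv L) (le_inf e e0)) (hc' W p)
    rw [res_smul, res_res, res_res, ha] at h1
    rw [← (hb0 V e0).1 h1, gk_r]
  have hadd : ∀ W h p q, v W h (p + q) = v W h p + v W h q := by
    intro W h p q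
    rw [key W h (p + q) _ inf_le_left inf_le_right (hm h) (c W p + c W q)
      (by rw [map_add, add_smul, hc', hc']), map_add]
  refine ⟨⟨fun W h => AddMonoidHom.mk' (v W h) (hadd W h), fun W h a p => ?_,
    fun {W W'} e h p => ?_⟩, fun x => ?_⟩
  · change v W h (a • p) = gk W h a • v W h p
    rw [key W h (a • p) _ inf_le_left inf_le_right (hm h) (r inf_le_left a * c W p)
      (by rw [res_smul, mul_smul, hc']), map_mul, gk_r, smul_eq_mul]
  · change v W' h _ = v W (e h) p
    exact (key W (e h) p _ (inf_le_left.trans e) inf_le_right (hm h) (c W' (res (pv L) e p))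
      (by rw [hc', res_res])).symm
  · obtain ⟨W, hx, b, hb⟩ := exists_basis hL x
    refine ⟨v W (gen_mem hx) b, fun hz => ?_, W, hx, b, fun V e p z hz => ?_, rfl⟩
    · have h1 : c W b = 0 :=
        gk_injective (W := W ⊓ W0) (hm (gen_mem hx)) (hz.trans (map_zero _).symm)
      have h2 := hc' W b
      rw [h1, zero_smul] at h2
      have h3 : (1 : Γ(X, W ⊓ W0)) = 0 := (hb (W ⊓ W0) inf_le_left).1 (by
        change (1 : Γ(X, W ⊓ W0)) • _ = (0 : Γ(X, W ⊓ W0)) • _
        rw [one_smul, zero_smul, ← h2])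
      have h4 := congrArg (gk (W ⊓ W0) (hm (gen_mem hx))) h3
      rw [map_one, map_zero] at h4
      exact one_ne_zero h4
    · obtain ⟨a, ha⟩ := (hb V e).2 p
      exact ⟨V, le_rfl, hz, a, (res_self p).trans ha.symm⟩

theorem isLineBundle_of_fr {M : X.Modules} (T : Ev (pv M) X.functionField)
    (h : ∀ x, ∃ u, Fr T x u) : IsLineBundle M := by
  intro x
  obtain ⟨u, hu, W, hx, b, hb, rfl⟩ := h x
  let s : (M.restrict W.ι).sections := PresheafOfModules.sectionsMk
    (fun V => res (pv M) (W.ι_image_le V.unop) b) fun V V' i =>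
      res_res (P := pv M) (W.ι_image_le V.unop) (W.ι.image_mono i.unop.le) b
  let ψ : triv W ⟶ M.restrict W.ι := (SheafOfModules.unitHomEquiv _).symm s
  have hψ : IsIso ψ := Scheme.Modules.Hom.isIso_iff_isIso_app.2 fun V => by
    refine (ConcreteCategory.isIso_iff_bijective _).2 ?_
    have h1 : ∀ a : Γ(X, W.ι ''ᵁ V), ψ.app V a = a • res (pv M) (W.ι_image_le V) b := fun a =>
      restrict_smul M W V a (res (pv M) (W.ι_image_le V) b)
    exact (funext h1 : _ = _) ▸ bij_of_gen hb (gen_mem hx) hu (W.ι_image_le V)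
  exact ⟨W, hx, ⟨(asIso ψ).symm⟩⟩

end

end Vale.Agent.P271L
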